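import Vale.Agent.P122.H610.Cnts
import Vale.Agent.P122.H286.MinG
import Vale.Agent.P122.H616.Diag

/-!
# P122 / H616 : stable sequences of valid structures (RGmin)

* `lmx_le` : the maximal density of the nodes of level `b` is at most `2 ^ (4 b n + 5)`.
* `Stab W` : no refinement of `W` changes the limits of the numbers of children and of the excesses.
* `exists_stab` : every sequence of valid structures has a stable refinement.
-/

set_option autoImplicit false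

namespace Vale.Agent.P122.H616

open Filter Topology Finset Vale.Agent.P127 Vale.Agent.P127.Stk Vale.Agent.P127.U Vale.Agent.P122.C2
  Vale.Agent.P122.H610 Vale.Agent.P122.H286

/-! ### bound of the densities -/

open Classical in
/-- tubes of a plank of size one -/
theorem ins_card_le (s : ℕ → Z2 → Fin 2 → ℝ) (n b : ℕ) (D : Finset Nd) (hD : ∀ S ∈ D, Cap n b S.τ) (w : Pk) :
    ((nbf s n b).ins D w).card ≤ (5 * 2 ^ (b * n)) ^ 2 * (2 ^ (b * n)) ^ 2 := by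
  set N := b * n with hN
  set A : Finset Z2 := Fintype.piFinset fun i => Finset.Icc ⌈(2 : ℝ) ^ N * (w.p i - 2)⌉ ⌊(2 : ℝ) ^ N * (w.p i + 2)⌋ with hA
  set B : Finset Z2 := Fintype.piFinset fun _ => Finset.Ico (0 : ℤ) (2 ^ N) with hB
  have hsub : (nbf s n b).ins D w ⊆ (A ×ˢ B).image fun z => (⟨z.2, z.1, w.t⟩ : Nd) := by
    intro S hS
    obtain ⟨h1, h2⟩ := (BF.mem_ins _).1 hS
    obtain ⟨h0, h3, h4, -, -⟩ := h2
    rw [Finset.mem_image]
    refine ⟨(S.o, S.τ), ?_, ?_⟩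
    · rw [Finset.mem_product]
      constructor
      · rw [hA, Fintype.mem_piFinset]
        intro i
        have hk1 : (1 / 2 : ℝ) ^ w.k ≤ 1 := pow_le_one₀ (by norm_num) (by norm_num)
        have hj1 : (1 / 2 : ℝ) ^ w.j ≤ 1 := pow_le_one₀ (by norm_num) (by norm_num)
        have h5 := abs_le_of_co (h3.trans hk1) (h4.trans hj1) i
        have h6 := abs_le.1 h5
        have h7 : (0 : ℝ) < 2 ^ N := by positivity
        have h8 : (S.o i : ℝ) = 2 ^ N * ((S.o i : ℝ) / 2 ^ N) := by field_simp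
        rw [Finset.mem_Icc]
        constructor
        · rw [Int.ceil_le, h8]
          exact mul_le_mul_of_nonneg_left (by linarith [h6.1]) h7.le
        · rw [Int.le_floor, h8]
          exact mul_le_mul_of_nonneg_left (by linarith [h6.2]) h7.le
      · rw [hB, Fintype.mem_piFinset]
        intro i
        have h5 := hD S h1 i
        exact Finset.mem_Ico.2 h5
    · exact Nd.ext rfl rfl h0.symm
  have hcA : A.card ≤ (5 * 2 ^ N) ^ 2 := by
    rw [hA, Fintype.card_piFinset]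
    simp only [Int.card_Icc, Fin.prod_univ_two, sq]
    have hle : ∀ i, (⌊(2 : ℝ) ^ N * (w.p i + 2)⌋ + 1 - ⌈(2 : ℝ) ^ N * (w.p i - 2)⌉).toNat ≤ 5 * 2 ^ N := by
      intro i
      have e1 := Int.floor_le ((2 : ℝ) ^ N * (w.p i + 2))
      have e2 := Int.le_ceil ((2 : ℝ) ^ N * (w.p i - 2))
      have e3 : (1 : ℝ) ≤ 2 ^ N := one_le_pow₀ (by norm_num)
      have e4 : ((⌊(2 : ℝ) ^ N * (w.p i + 2)⌋ + 1 - ⌈(2 : ℝ) ^ N * (w.p i - 2)⌉ : ℤ) : ℝ) ≤ ((5 * 2 ^ N : ℕ) : ℤ) := by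
        push_cast
        linarith
      have e5 : (⌊(2 : ℝ) ^ N * (w.p i + 2)⌋ + 1 - ⌈(2 : ℝ) ^ N * (w.p i - 2)⌉ : ℤ) ≤ ((5 * 2 ^ N : ℕ) : ℤ) := by
        exact_mod_cast e4
      omega
    exact Nat.mul_le_mul (hle 0) (hle 1)
  have hcB : B.card ≤ (2 ^ N) ^ 2 := by
    rw [hB, Fintype.card_piFinset]
    simp only [Int.card_Ico, Fin.prod_univ_two, sq, sub_zero]
    have : (2 ^ N : ℤ).toNat = 2 ^ N := by
      have : (2 ^ N : ℤ) = ((2 ^ N : ℕ) : ℤ) := by push_cast; rfl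
      rw [this, Int.toNat_natCast]
    rw [this]
  calc _ ≤ _ := Finset.card_le_card hsub
    _ ≤ (A ×ˢ B).card := Finset.card_image_le
    _ = A.card * B.card := Finset.card_product _ _
    _ ≤ _ := Nat.mul_le_mul hcA hcB

theorem lmx_le (s : ℕ → Z2 → Fin 2 → ℝ) (n b : ℕ) {D : Finset Nd} (hne : D.Nonempty) (hD : ∀ S ∈ D, Cap n b S.τ) :
    lmx s n b D ≤ 4 * (b * n : ℕ) + 5 := by
  rw [lmx_le_iff s n b hne]
  refine (nbf s n b).mx_le D fun w hw => ?_
  have h1 : (((nbf s n b).ins D w).card : ℝ) ≤ (5 * 2 ^ (b * n)) ^ 2 * (2 ^ (b * n)) ^ 2 := by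
    exact_mod_cast ins_card_le s n b D hD w
  have h2 := (nbf s n b).v1 w hw
  have h3 : (2 : ℝ) ^ (4 * ((b * n : ℕ) : ℝ) + 5) = 2 ^ (4 * (b * n) + 5) := by
    rw [← Real.rpow_natCast]
    push_cast
    rfl
  have h4 : (5 * (2 : ℝ) ^ (b * n)) ^ 2 * (2 ^ (b * n)) ^ 2 ≤ 2 ^ (4 * (b * n) + 5) := by
    have e : (2 : ℝ) ^ (4 * (b * n) + 5) = 32 * (2 ^ (b * n)) ^ 4 := by
      rw [pow_add, mul_comm 4 (b * n), pow_mul]
      norm_num
      ring
    rw [e]
    have : (0 : ℝ) ≤ (2 ^ (b * n)) ^ 4 := by positivity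
    nlinarith
  rw [h3]
  have h5 : (0 : ℝ) ≤ 2 ^ (4 * (b * n) + 5) := by positivity
  nlinarith

/-- number of children of a valid structure -/
theorem J_le_two {C : ℝ} {n K : ℕ} {F : Amp C n K} {V : Val} {ρ : ℝ} {a : ℕ → ℝ} {J : ℕ → ℕ} (h : V.Ok F ρ a J)
    (hX : V.X.Nonempty) {c : ℕ} (hc : c < K) : J c ≤ 2 * n := by
  obtain ⟨S, hS⟩ := D_nonempty h hX c hc.le
  have h1 := (h.size c hc S hS).1
  have h2 := Finset.card_le_card (h.kid c hc S hS)
  rw [card_kids] at h2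
  exact (Nat.pow_le_pow_iff_right (by norm_num : 1 < 2)).1 (h1.trans h2)

/-! ### stability -/

variable {K : ℕ} {Z : CS K}

/-- limit of the excesses -/
noncomputable def elv (W : VS Z) (c : ℕ) : ℝ :=
  Z.lg fun i => lmx (Z.F i).s (Z.n i) c ((W.V i).D (Z.F i).s (Z.n i) c)

/-- limit of the numbers of children -/
noncomputable def jlv (W : VS Z) (c : ℕ) : ℝ := Z.lg fun i => (W.J i c : ℝ)

/-- no refinement changes the limits -/
def Stab (W : VS Z) : Prop := ∀ W' : VS Z, W'.Le W → (∀ c, c < K → jlv W' c = jlv W c) ∧ ∀ c, c ≤ K → elv W' c = elv W c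

/-- candidates below `W` -/
def Tc (W : VS Z) (i : ℕ) : Type :=
  {p : Val × ℝ × (ℕ → ℕ) // p.1.Ok (Z.F i) p.2.1 (W.a i) p.2.2 ∧ p.1.X.Nonempty ∧
    (∀ x ∈ p.1.X, 0 ≤ x.T ∧ x.T < 2 ^ (2 * K * Z.n i)) ∧ 0 < p.2.1 ∧ p.2.1 ≤ 1 ∧ p.1.Le (W.V i)}

/-- refinement of candidates -/
def Rc (W : VS Z) (ε : ℝ) (i : ℕ) (p' p : Tc W i) : Prop :=
  p'.1.1.Le p.1.1 ∧ (2 : ℝ) ^ (-(ε * Z.n i)) ≤ p'.1.2.1 ∧
    (2 : ℝ) ^ (-(ε * Z.n i)) * (p.1.1.X.card : ℝ) ≤ p'.1.1.X.card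

theorem pow_anti {ε ε' : ℝ} (n : ℕ) (h : ε ≤ ε') : (2 : ℝ) ^ (-(ε' * n)) ≤ (2 : ℝ) ^ (-(ε * n)) := by
  refine Real.rpow_le_rpow_of_exponent_le (by norm_num) ?_
  have := mul_le_mul_of_nonneg_right h (Nat.cast_nonneg n : (0 : ℝ) ≤ n)
  linarith

theorem Rc_ok (W : VS Z) : RfOk (Rc W) where
  mono := fun ε ε' i p p' h hR => by
    obtain ⟨h1, h2, h3⟩ := hR
    refine ⟨h1, (pow_anti _ h).trans h2, le_trans ?_ h3⟩
    exact mul_le_mul_of_nonneg_right (pow_anti _ h) (Nat.cast_nonneg _)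
  trans := fun ε ε' i p p' p'' hε hε' hR hR' => by
    obtain ⟨h1, h2, h3⟩ := hR
    obtain ⟨h1', h2', h3'⟩ := hR'
    refine ⟨h1'.trans h1, (pow_anti _ (by linarith)).trans h2', ?_⟩
    have e : (2 : ℝ) ^ (-((ε + ε') * Z.n i)) = 2 ^ (-(ε' * Z.n i)) * 2 ^ (-(ε * Z.n i)) := by
      rw [← Real.rpow_add (by norm_num)]
      congr 1
      ring
    rw [e, mul_assoc]
    exact (mul_le_mul_of_nonneg_left h3 (Real.rpow_nonneg (by norm_num) _)).trans h3'
  self := fun ε i p p' hε hR => by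
    obtain ⟨h1, h2, h3⟩ := hR
    refine ⟨Val.Le.refl _, h2, ?_⟩
    have h4 : (2 : ℝ) ^ (-(ε * Z.n i)) ≤ 1 := by
      refine Real.rpow_le_one_of_one_le_of_nonpos (by norm_num) ?_
      have := mul_nonneg hε.le (Nat.cast_nonneg (Z.n i) : (0 : ℝ) ≤ Z.n i)
      linarith
    exact mul_le_of_le_one_left (Nat.cast_nonneg _) h4

/-- the functionals -/
noncomputable def fc (W : VS Z) : Fin K ⊕ Fin (K + 1) → ∀ i, Tc W i → ℝ
  | Sum.inl c => fun i p => (p.1.2.2 c : ℝ) / Z.L i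
  | Sum.inr b => fun i p => lmx (Z.F i).s (Z.n i) b (p.1.1.D (Z.F i).s (Z.n i) b) / Z.L i

theorem L_nonneg (i : ℕ) : 0 ≤ Z.L i := Nat.cast_nonneg _

theorem fc_nonneg (W : VS Z) (c : Fin K ⊕ Fin (K + 1)) (i : ℕ) (p : Tc W i) : 0 ≤ fc W c i p := by
  rcases c with c | b
  · exact div_nonneg (Nat.cast_nonneg _) (L_nonneg i)
  · exact div_nonneg (lmx_nonneg _ _ _ (D_nonempty p.2.1 p.2.2.1 b (Nat.lt_succ_iff.1 b.2))) (L_nonneg i)

theorem fc_mono (W : VS Z) (c : Fin K ⊕ Fin (K + 1)) (ε : ℝ) (i : ℕ) (p p' : Tc W i) (h : Rc W ε i p' p) :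
    fc W c i p' ≤ fc W c i p := by
  rcases c with c | b
  · refine div_le_div_of_nonneg_right ?_ (L_nonneg i)
    exact_mod_cast J_mono p.2.1 p'.2.1 h.1 p'.2.2.1 c.2
  · refine div_le_div_of_nonneg_right ?_ (L_nonneg i)
    exact lmx_mono _ _ _ (D_nonempty p'.2.1 p'.2.2.1 b (Nat.lt_succ_iff.1 b.2)) (h.1.D b)

/-- the candidate of a sequence -/
def toT (W : VS Z) (i : ℕ) : Tc W i :=
  ⟨(W.V i, W.ρ i, W.J i), W.ok i, W.ne i, W.tim i, W.ρpos i, W.ρ1 i, Val.Le.refl _⟩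

theorem Z_le_two (i : ℕ) (h : 0 < Z.L i) : 2 * (Z.n i : ℝ) / Z.L i ≤ 2 := by
  rw [div_le_iff₀ h]
  have := Z.n_le_L i
  linarith

/-- the number of children is `O(L)` -/
theorem OL_J (W : VS Z) {c : ℕ} (hc : c < K) : Z.OL fun i => (W.J i c : ℝ) := by
  refine CS.OL.of_le (c := 2) (Eventually.of_forall fun i => Nat.cast_nonneg _) (Eventually.of_forall fun i => ?_)
  have h1 : (W.J i c : ℝ) ≤ 2 * Z.n i := by exact_mod_cast J_le_two (W.ok i) (W.ne i) hc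
  have := Z.n_le_L i
  linarith

/-- the excess is `O(L)` -/
theorem OL_lmx (W : VS Z) {c : ℕ} (hc : c ≤ K) :
    Z.OL fun i => lmx (Z.F i).s (Z.n i) c ((W.V i).D (Z.F i).s (Z.n i) c) := by
  refine CS.OL.of_le (c := 4 * K + 5) (Eventually.of_forall fun i => lmx_nonneg _ _ _ (D_nonempty (W.ok i) (W.ne i) c hc)) ?_
  filter_upwards [Z.Ltop.eventually_ge_atTop 1] with i hi
  have h1 := lmx_le (Z.F i).s (Z.n i) c (D_nonempty (W.ok i) (W.ne i) c hc) ((W.ok i).cap c hc)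
  have h2 : ((c * Z.n i : ℕ) : ℝ) ≤ K * Z.L i := by
    push_cast
    have h3 : (c : ℝ) ≤ K := by exact_mod_cast hc
    exact mul_le_mul h3 (Z.n_le_L i) (Nat.cast_nonneg _) (Nat.cast_nonneg _)
  nlinarith

/-- **RGmin** : stable refinements -/
theorem exists_stab (W : VS Z) : ∃ W' : VS Z, W'.Le W ∧ (∀ i, (W'.V i).Le (W.V i)) ∧ (∀ i, W'.a i = W.a i) ∧ Stab W' := by
  classical
  have hW : Rf (Rc W) (toT W) (toT W) := by
    intro ε hε
    filter_upwards [W.ρbig ε hε] with i hi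
    refine ⟨Val.Le.refl _, hi, ?_⟩
    have h4 : (2 : ℝ) ^ (-(ε * Z.n i)) ≤ 1 := by
      refine Real.rpow_le_one_of_one_le_of_nonpos (by norm_num) ?_
      have := mul_nonneg hε.le (Nat.cast_nonneg (Z.n i) : (0 : ℝ) ≤ Z.n i)
      linarith
    exact mul_le_of_le_one_left (Nat.cast_nonneg _) h4
  obtain ⟨P, hP1, hP2, hP3⟩ := diag_min (Rc_ok W) (fc W) (fc_nonneg W) (fc_mono W) (toT W) hW (by
    rintro (c | b)
    · exact OL_J W c.2
    · exact OL_lmx W (Nat.lt_succ_iff.1 b.2))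
  let W' : VS Z :=
    { V := fun i => (P i).1.1
      ρ := fun i => (P i).1.2.1
      a := W.a
      J := fun i => (P i).1.2.2
      ok := fun i => (P i).2.1
      ne := fun i => (P i).2.2.1
      tim := fun i => (P i).2.2.2.1
      ρpos := fun i => (P i).2.2.2.2.1
      ρ1 := fun i => (P i).2.2.2.2.2.1
      ρbig := fun ε hε => (hP2 ε hε).mono fun i hi => hi.2.1 }
  have hle : ∀ i, (W'.V i).Le (W.V i) := fun i => (P i).2.2.2.2.2.2
  refine ⟨W', ⟨Eventually.of_forall hle, Eventually.of_forall fun _ => rfl, ?_⟩, hle, fun _ => rfl, ?_⟩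
  · intro ε hε
    filter_upwards [hP1 ε hε] with i hi
    have hpos : (0 : ℝ) < (W.V i).X.card := by exact_mod_cast (W.ne i).card_pos
    rw [le_div_iff₀ hpos]
    exact hi.2.2
  · intro W'' h
    -- the candidate of `W''`
    have key : ∀ᶠ i in (uf : Filter ℕ), (W''.V i).Le (W'.V i) ∧ W''.a i = W.a i := by
      filter_upwards [h.le, h.a_eq] with i h1 h2
      exact ⟨h1, h2⟩
    let P' : ∀ i, Tc W i := fun i =>
      if hi : (W''.V i).Le (W'.V i) ∧ W''.a i = W.a i then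
        ⟨(W''.V i, W''.ρ i, W''.J i), hi.2 ▸ W''.ok i, W''.ne i, W''.tim i, W''.ρpos i, W''.ρ1 i, hi.1.trans (hle i)⟩
      else P i
    have hP' : ∀ i, (W''.V i).Le (W'.V i) ∧ W''.a i = W.a i → (P' i).1 = (W''.V i, W''.ρ i, W''.J i) := by
      intro i hi
      have e : P' i = ⟨(W''.V i, W''.ρ i, W''.J i), hi.2 ▸ W''.ok i, W''.ne i, W''.tim i, W''.ρpos i, W''.ρ1 i,
          hi.1.trans (hle i)⟩ := dif_pos hi
      rw [e]
    have hRf : Rf (Rc W) P' P := by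
      intro ε hε
      filter_upwards [key, W''.ρbig ε hε, h.big ε hε] with i h1 h2 h3
      have hpos : (0 : ℝ) < (W'.V i).X.card := by exact_mod_cast (W'.ne i).card_pos
      rw [le_div_iff₀ hpos] at h3
      refine ⟨?_, ?_, ?_⟩
      · rw [hP' i h1]; exact h1.1
      · rw [hP' i h1]; exact h2
      · rw [hP' i h1]; exact h3
    have h4 := hP3 P' hRf
    refine ⟨fun c hc => ?_, fun c hc => ?_⟩
    · have h5 := h4 (Sum.inl ⟨c, hc⟩)
      refine Eq.trans (ulim_congr ?_) h5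
      filter_upwards [key] with i hi
      show (W''.J i c : ℝ) / Z.L i = ((P' i).1.2.2 c : ℝ) / Z.L i
      rw [hP' i hi]
    · have h5 := h4 (Sum.inr ⟨c, Nat.lt_succ_of_le hc⟩)
      refine Eq.trans (ulim_congr ?_) h5
      filter_upwards [key] with i hi
      show lmx (Z.F i).s (Z.n i) c ((W''.V i).D (Z.F i).s (Z.n i) c) / Z.L i =
        lmx (Z.F i).s (Z.n i) c ((P' i).1.1.D (Z.F i).s (Z.n i) c) / Z.L i
      rw [hP' i hi]

/-- refinements of stable sequences are stable -/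
theorem VS_Le_trans {W W' W'' : VS Z} (h : W'.Le W) (h' : W''.Le W') : W''.Le W := by
  refine ⟨?_, ?_, ?_⟩
  · filter_upwards [h.le, h'.le] with i h1 h2
    exact h2.trans h1
  · filter_upwards [h.a_eq, h'.a_eq] with i h1 h2
    exact h2.trans h1
  · refine CS.Big.mono (CS.Big.mul h'.big h.big) (Eventually.of_forall fun i => ?_)
    have hpos : (0 : ℝ) < (W'.V i).X.card := by exact_mod_cast (W'.ne i).card_pos
    rw [div_mul_div_cancel₀ hpos.ne']

theorem Stab.of_le {W W' : VS Z} (h : Stab W) (hle : W'.Le W) : Stab W' := by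
  intro W'' h'
  have h1 := h W'' (VS_Le_trans hle h')
  have h2 := h W' hle
  exact ⟨fun c hc => (h1.1 c hc).trans (h2.1 c hc).symm, fun c hc => (h1.2 c hc).trans (h2.2 c hc).symm⟩

end Vale.Agent.P122.H616
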